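import Mathlib

/-!
# Kernels of negative type on a finite set
-/

namespace Vale.Agent.P238.H474

open MeasureTheory Finset Matrix

variable {X : Type*} [Fintype X]

/-- kernel of negative type: symmetric, zero on the diagonal, conditionally negative definite -/
structure Neg (k : X → X → ℝ) : Prop where
  symm : ∀ x y, k x y = k y x
  diag : ∀ x, k x x = 0
  neg : ∀ c : X → ℝ, ∑ x, c x = 0 → ∑ x, ∑ y, c x * c y * k x y ≤ 0

theorem Neg.nonneg [DecidableEq X] {k : X → X → ℝ} (h : Neg k) (a b : X) : 0 ≤ k a b := by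
  by_cases hab : a = b
  · subst hab; rw [h.diag]
  · have hn := h.neg (fun x => (if x = a then 1 else 0) - (if x = b then 1 else 0)) (by
      rw [sum_sub_distrib]; simp)
    have e : ∑ x, ∑ y, ((if x = a then (1 : ℝ) else 0) - (if x = b then 1 else 0))
        * ((if y = a then (1 : ℝ) else 0) - (if y = b then 1 else 0)) * k x y
        = k a a - k a b - k b a + k b b := by
      simp only [sub_mul, mul_sub, sum_sub_distrib, ite_mul, mul_ite, one_mul, mul_one, zero_mul,
        mul_zero, Finset.sum_ite_eq', Finset.mem_univ, if_true]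
      ring
    rw [e, h.diag, h.diag, h.symm b a] at hn
    linarith

/-- the matrix `k(x,o) + k(y,o) - k(x,y)` -/
def pot (k : X → X → ℝ) (o : X) : Matrix X X ℝ := fun x y => k x o + k y o - k x y

theorem pot_psd [DecidableEq X] {k : X → X → ℝ} (h : Neg k) (o : X) :
    (pot k o).PosSemidef := by
  rw [Matrix.posSemidef_iff_dotProduct_mulVec]
  refine ⟨?_, fun c => ?_⟩
  · ext x y
    simp only [Matrix.conjTranspose_apply, star_trivial, pot]
    rw [h.symm x y]; ring
  · set s : ℝ := ∑ x, c x with hs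
    have hn := h.neg (fun x => c x - if x = o then s else 0) (by
      rw [sum_sub_distrib]; simp [hs])
    have hd : ∀ f : X → ℝ, ∑ x, (if x = o then s else 0) * f x = s * f o := by
      intro f; simp
    have e : ∑ x, ∑ y, (c x - if x = o then s else 0) * (c y - if y = o then s else 0) * k x y
        = ∑ x, ∑ y, c x * c y * k x y - s * ∑ x, c x * k x o - s * ∑ y, c y * k o y
          + s * s * k o o := by
      have e1 : ∀ x, ∑ y, (c x - if x = o then s else 0) * (c y - if y = o then s else 0) * k x y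
          = ∑ y, c x * c y * k x y - s * (c x * k x o)
            - (if x = o then s else 0) * (∑ y, c y * k x y)
            + (if x = o then s else 0) * (s * k x o) := by
        intro x
        have e2 : ∑ y, (c x - if x = o then s else 0) * (c y - if y = o then s else 0) * k x y
            = ∑ y, c x * c y * k x y - (if x = o then s else 0) * (∑ y, c y * k x y)
              - (c x - if x = o then s else 0) * ∑ y, (if y = o then s else 0) * k x y := by
          simp only [Finset.mul_sum]
          rw [← sum_sub_distrib, ← sum_sub_distrib]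
          exact sum_congr rfl fun y _ => by ring
        rw [e2, hd]
        ring
      simp only [e1]
      have e3 : ∑ x, s * (c x * k x o) = s * ∑ x, c x * k x o := (Finset.mul_sum _ _ _).symm
      rw [sum_add_distrib, sum_sub_distrib, sum_sub_distrib, hd, hd, e3]
      ring
    rw [e, h.diag o, mul_zero, add_zero] at hn
    have e3 : ∑ y, c y * k o y = ∑ x, c x * k x o := sum_congr rfl fun x _ => by rw [h.symm]
    rw [e3] at hn
    have e4 : star c ⬝ᵥ (pot k o).mulVec c
        = s * (∑ x, c x * k x o) + s * (∑ x, c x * k x o) - ∑ x, ∑ y, c x * c y * k x y := by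
      simp only [dotProduct, Matrix.mulVec, pot, Pi.star_apply, star_trivial, Finset.mul_sum]
      have : ∀ x, ∑ y, c x * ((k x o + k y o - k x y) * c y)
          = s * (c x * k x o) + c x * (∑ y, c y * k y o) - ∑ y, c x * c y * k x y := by
        intro x
        rw [hs, Finset.sum_mul, Finset.mul_sum, ← sum_add_distrib, ← sum_sub_distrib]
        exact sum_congr rfl fun y _ => by ring
      simp only [this]
      rw [sum_sub_distrib, sum_add_distrib, ← Finset.sum_mul, ← hs]
      simp only [Finset.mul_sum]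
    rw [e4]
    linarith

/-- entrywise exponential of a positive semidefinite matrix -/
theorem psd_exp [DecidableEq X] {A : Matrix X X ℝ} (hA : A.PosSemidef) (c : X → ℝ) :
    0 ≤ ∑ x, ∑ y, c x * c y * Real.exp (A x y) := by
  have hp : ∀ m : ℕ, (Matrix.of fun x y => A x y ^ m : Matrix X X ℝ).PosSemidef := by
    intro m
    induction m with
    | zero =>
      have h1 : (Matrix.of fun x y => A x y ^ 0 : Matrix X X ℝ)
          = Matrix.vecMulVec (fun _ => (1 : ℝ)) (star fun _ => (1 : ℝ)) := by
        ext x y; simp [Matrix.vecMulVec]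
      rw [h1]
      exact Matrix.posSemidef_vecMulVec_self_star _
    | succ m ih =>
      have h1 : (Matrix.of fun x y => A x y ^ (m + 1) : Matrix X X ℝ)
          = Matrix.hadamard (Matrix.of fun x y => A x y ^ m) A := by
        ext x y; simp [Matrix.hadamard, pow_succ]
      rw [h1]
      exact ih.hadamard hA
  have hq : ∀ m : ℕ, 0 ≤ ∑ x, ∑ y, c x * c y * (A x y ^ m / (m.factorial : ℝ)) := by
    intro m
    have h1 := (Matrix.posSemidef_iff_dotProduct_mulVec.1 (hp m)).2 c
    have e : star c ⬝ᵥ (Matrix.of fun x y => A x y ^ m : Matrix X X ℝ).mulVec c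
        = ∑ x, ∑ y, c x * c y * A x y ^ m := by
      simp only [dotProduct, Matrix.mulVec, Pi.star_apply, star_trivial, Finset.mul_sum,
        Matrix.of_apply]
      exact sum_congr rfl fun x _ => sum_congr rfl fun y _ => by ring
    rw [e] at h1
    have e2 : ∑ x, ∑ y, c x * c y * (A x y ^ m / (m.factorial : ℝ))
        = (∑ x, ∑ y, c x * c y * A x y ^ m) / (m.factorial : ℝ) := by
      rw [Finset.sum_div]
      refine sum_congr rfl fun x _ => ?_
      rw [Finset.sum_div]
      exact sum_congr rfl fun y _ => by ring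
    rw [e2]
    positivity
  have hs : HasSum (fun m : ℕ => ∑ x, ∑ y, c x * c y * (A x y ^ m / (m.factorial : ℝ)))
      (∑ x, ∑ y, c x * c y * Real.exp (A x y)) := by
    refine hasSum_sum fun x _ => hasSum_sum fun y _ => HasSum.mul_left _ ?_
    have := NormedSpace.expSeries_div_hasSum_exp (A x y)
    rwa [← Real.exp_eq_exp_ℝ] at this
  exact hs.nonneg hq

/-- Schoenberg: `exp (-s k)` is positive definite -/
theorem Neg.exp_psd [DecidableEq X] {k : X → X → ℝ} (h : Neg k) {s : ℝ} (hs : 0 ≤ s)
    (c : X → ℝ) : 0 ≤ ∑ x, ∑ y, c x * c y * Real.exp (-(s * k x y)) := by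
  rcases isEmpty_or_nonempty X with hX | ⟨⟨o⟩⟩
  · simp
  have h1 := psd_exp ((pot_psd h o).smul hs) fun x => c x * Real.exp (-(s * k x o))
  refine h1.trans (le_of_eq ?_)
  refine sum_congr rfl fun x _ => sum_congr rfl fun y _ => ?_
  have e : Real.exp (-(s * k x y)) = Real.exp (-(s * k x o)) * Real.exp (-(s * k y o))
      * Real.exp ((s • pot k o) x y) := by
    rw [← Real.exp_add, ← Real.exp_add]
    congr 1
    simp only [Matrix.smul_apply, pot, smul_eq_mul]
    ring
  rw [e]
  ring

/-- `1/(t+k)` is positive definite -/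
theorem Neg.inv_psd [DecidableEq X] {k : X → X → ℝ} (h : Neg k) {t : ℝ} (ht : 0 < t)
    (c : X → ℝ) : 0 ≤ ∑ x, ∑ y, c x * c y * (t + k x y)⁻¹ := by
  have hpos : ∀ x y, 0 < t + k x y := fun x y => by have := h.nonneg x y; linarith
  have e : ∀ x y, (t + k x y)⁻¹ = ∫ s in Set.Ioi (0 : ℝ), Real.exp (-((t + k x y) * s)) := by
    intro x y
    have := integral_exp_mul_Ioi (a := -(t + k x y)) (by have := hpos x y; linarith) 0
    simp only [neg_mul, mul_zero, Real.exp_zero] at this
    rw [this, neg_div_neg_eq, one_div]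
  have hi : ∀ x y, IntegrableOn (fun s : ℝ => Real.exp (-((t + k x y) * s))) (Set.Ioi 0) := by
    intro x y
    have := integrableOn_exp_mul_Ioi (a := -(t + k x y)) (by have := hpos x y; linarith) 0
    refine this.congr (Filter.Eventually.of_forall fun s => ?_)
    simp only [neg_mul]
  simp only [e]
  have e2 : ∑ x, ∑ y, c x * c y * ∫ s in Set.Ioi (0 : ℝ), Real.exp (-((t + k x y) * s))
      = ∫ s in Set.Ioi (0 : ℝ), ∑ x, ∑ y, c x * c y * Real.exp (-((t + k x y) * s)) := by
    rw [integral_finsetSum _ fun x _ => integrable_finsetSum _ fun y _ => (hi x y).const_mul _]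
    refine sum_congr rfl fun x _ => ?_
    rw [integral_finsetSum _ fun y _ => (hi x y).const_mul _]
    exact sum_congr rfl fun y _ => (integral_const_mul _ _).symm
  rw [e2]
  refine setIntegral_nonneg measurableSet_Ioi fun s hs => ?_
  have h1 := h.exp_psd (le_of_lt hs) c
  have e3 : ∑ x, ∑ y, c x * c y * Real.exp (-((t + k x y) * s))
      = Real.exp (-(t * s)) * ∑ x, ∑ y, c x * c y * Real.exp (-(s * k x y)) := by
    rw [Finset.mul_sum]
    refine sum_congr rfl fun x _ => ?_
    rw [Finset.mul_sum]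
    refine sum_congr rfl fun y _ => ?_
    rw [show -((t + k x y) * s) = -(t * s) + -(s * k x y) by ring, Real.exp_add]
    ring
  rw [e3]
  positivity

/-- powers of kernels of negative type -/
theorem Neg.rpow [DecidableEq X] {k : X → X → ℝ} (h : Neg k) {a : ℝ} (h0 : 0 < a) (h1 : a ≤ 1) :
    Neg fun x y => (k x y) ^ a := by
  rcases h1.eq_or_lt with rfl | h1
  · simpa only [Real.rpow_one] using h
  refine ⟨fun x y => by rw [h.symm], fun x => by rw [h.diag, Real.zero_rpow h0.ne'], fun c hc => ?_⟩
  have hp : a ∈ Set.Ioo (0 : ℝ) 1 := ⟨h0, h1⟩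
  set K : ℝ := (∫ t in Set.Ioi (0 : ℝ), Real.rpowIntegrand₀₁ a t 1)⁻¹ with hK
  have hK0 : 0 ≤ K := inv_nonneg.2 (Real.integral_rpowIntegrand₀₁_one_pos hp).le
  have e : ∀ x y, (k x y) ^ a = K * ∫ t in Set.Ioi (0 : ℝ), Real.rpowIntegrand₀₁ a t (k x y) :=
    fun x y => Real.rpow_eq_const_mul_integral hp (h.nonneg x y)
  have hi : ∀ x y, IntegrableOn (fun t : ℝ => Real.rpowIntegrand₀₁ a t (k x y)) (Set.Ioi 0) :=
    fun x y => Real.integrableOn_rpowIntegrand₀₁_Ioi hp (h.nonneg x y)
  have e2 : ∑ x, ∑ y, c x * c y * (k x y) ^ a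
      = K * ∫ t in Set.Ioi (0 : ℝ), ∑ x, ∑ y, c x * c y * Real.rpowIntegrand₀₁ a t (k x y) := by
    rw [integral_finsetSum _ fun x _ => integrable_finsetSum _ fun y _ => (hi x y).const_mul _,
      Finset.mul_sum]
    refine sum_congr rfl fun x _ => ?_
    rw [integral_finsetSum _ fun y _ => (hi x y).const_mul _, Finset.mul_sum]
    refine sum_congr rfl fun y _ => ?_
    rw [integral_const_mul, e]
    ring
  rw [e2]
  refine mul_nonpos_of_nonneg_of_nonpos hK0 (setIntegral_nonpos measurableSet_Ioi fun t ht => ?_)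
  have ht : 0 < t := ht
  have h2 := h.inv_psd ht c
  have e3 : ∑ x, ∑ y, c x * c y * Real.rpowIntegrand₀₁ a t (k x y)
      = t ^ a * (t⁻¹ * (∑ x, c x) * (∑ y, c y)) - t ^ a * ∑ x, ∑ y, c x * c y * (t + k x y)⁻¹ := by
    rw [mul_assoc, Finset.sum_mul_sum]
    simp only [Finset.mul_sum]
    rw [← sum_sub_distrib]
    refine sum_congr rfl fun x _ => ?_
    rw [← sum_sub_distrib]
    refine sum_congr rfl fun y _ => ?_
    simp only [Real.rpowIntegrand₀₁]
    ring
  rw [e3, hc]
  have : 0 ≤ t ^ a := Real.rpow_nonneg ht.le a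
  nlinarith [mul_nonneg this h2]

/-- squared distances in a real inner product space -/
theorem neg_sq {H : Type*} [NormedAddCommGroup H] [InnerProductSpace ℝ H] (F : X → H) :
    Neg fun x y => ‖F x - F y‖ ^ 2 := by
  refine ⟨fun x y => by rw [norm_sub_rev], fun x => by simp, fun c hc => ?_⟩
  have e : ∑ x, ∑ y, c x * c y * ‖F x - F y‖ ^ 2
      = (∑ x, c x * ‖F x‖ ^ 2) * (∑ y, c y) + (∑ x, c x) * (∑ y, c y * ‖F y‖ ^ 2)
        - 2 * ‖∑ x, c x • F x‖ ^ 2 := by
    have e1 : ‖∑ x, c x • F x‖ ^ 2 = ∑ x, ∑ y, c x * c y * inner ℝ (F x) (F y) := by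
      rw [← real_inner_self_eq_norm_sq, sum_inner]
      refine sum_congr rfl fun x _ => ?_
      rw [inner_sum]
      refine sum_congr rfl fun y _ => ?_
      rw [real_inner_smul_left, real_inner_smul_right]
      ring
    rw [e1, Finset.sum_mul_sum, Finset.sum_mul_sum, Finset.mul_sum, ← sum_add_distrib,
      ← sum_sub_distrib]
    refine sum_congr rfl fun x _ => ?_
    rw [Finset.mul_sum, ← sum_add_distrib, ← sum_sub_distrib]
    refine sum_congr rfl fun y _ => ?_
    rw [@norm_sub_sq_real]
    ring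
  rw [e, hc]
  have := sq_nonneg ‖∑ x, c x • F x‖
  nlinarith

theorem exists_sqrt [DecidableEq X] {V : Matrix X X ℝ} (hV : V.PosSemidef) :
    ∃ B : Matrix X X ℝ, B.PosSemidef ∧ B * B = V := by
  open scoped MatrixOrder in
  exact ⟨CFC.sqrt V, (CFC.sqrt_nonneg V).posSemidef, CFC.sqrt_mul_sqrt_self V hV.nonneg⟩

/-- a kernel of negative type is a squared distance in a finite sum of squares -/
theorem Neg.exists_sq [DecidableEq X] {k : X → X → ℝ} (h : Neg k) :
    ∃ f : X → X → ℝ, ∀ x y, k x y = ∑ i, (f i x - f i y) ^ 2 := by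
  rcases isEmpty_or_nonempty X with hX | ⟨⟨o⟩⟩
  · exact ⟨fun x => isEmptyElim x, fun x => isEmptyElim x⟩
  have hP : ((1 / 2 : ℝ) • pot k o).PosSemidef := (pot_psd h o).smul (by norm_num)
  obtain ⟨B, hBp, hB⟩ := exists_sqrt hP
  have hBs : ∀ i x, B i x = B x i := fun i x => by
    have := congrFun (congrFun hBp.1 x) i
    simpa using this
  refine ⟨fun i x => B i x, fun x y => ?_⟩
  have hx : ∀ x y, (1 / 2 : ℝ) * (k x o + k y o - k x y) = ∑ i, B i x * B i y := by
    intro x y
    have := congrFun (congrFun hB x) y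
    rw [Matrix.mul_apply] at this
    simp only [Matrix.smul_apply, pot, smul_eq_mul] at this
    rw [← this]
    exact sum_congr rfl fun i _ => by rw [hBs i x]
  have e1 := hx x x
  have e2 := hx y y
  have e3 := hx x y
  rw [h.diag] at e1 e2
  have e4 : ∑ i, (B i x - B i y) ^ 2 = ∑ i, B i x * B i x + ∑ i, B i y * B i y
      - 2 * ∑ i, B i x * B i y := by
    rw [Finset.mul_sum, ← sum_add_distrib, ← sum_sub_distrib]
    exact sum_congr rfl fun i _ => by ring
  rw [e4]
  linarith

/-- distances in `L_p`, `1 ≤ p ≤ 2` -/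
theorem neg_Lp [DecidableEq X] {Ω : Type*} [MeasurableSpace Ω] (μ : Measure Ω) {p : ℝ}
    (h1 : 1 ≤ p) (h2 : p ≤ 2) (F : X → Lp ℝ (ENNReal.ofReal p) μ) :
    Neg fun x y => ‖F x - F y‖ := by
  have hp0 : 0 < p := by linarith
  have hpe : (ENNReal.ofReal p) ≠ 0 := by
    simp only [ne_eq, ENNReal.ofReal_eq_zero, not_le]; exact hp0
  have hpt : (ENNReal.ofReal p) ≠ ⊤ := ENNReal.ofReal_ne_top
  have htr : (ENNReal.ofReal p).toReal = p := ENNReal.toReal_ofReal hp0.le
  -- the `p`-th power
  have hk : Neg fun x y => ∫ ω, |F x ω - F y ω| ^ p ∂μ := by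
    refine ⟨fun x y => by simp only [abs_sub_comm], fun x => by
      simp [Real.zero_rpow hp0.ne'], fun c hc => ?_⟩
    have hi : ∀ x y, Integrable (fun ω => |F x ω - F y ω| ^ p) μ := by
      intro x y
      have hm : MemLp (fun ω => F x ω - F y ω) (ENNReal.ofReal p) μ :=
        (Lp.memLp (F x)).sub (Lp.memLp (F y))
      have := hm.integrable_norm_rpow hpe hpt
      rw [htr] at this
      simpa only [Real.norm_eq_abs] using this
    have e2 : ∑ x, ∑ y, c x * c y * ∫ ω, |F x ω - F y ω| ^ p ∂μ
        = ∫ ω, ∑ x, ∑ y, c x * c y * |F x ω - F y ω| ^ p ∂μ := by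
      rw [integral_finsetSum _ fun x _ => integrable_finsetSum _ fun y _ => (hi x y).const_mul _]
      refine sum_congr rfl fun x _ => ?_
      rw [integral_finsetSum _ fun y _ => (hi x y).const_mul _]
      exact sum_congr rfl fun y _ => (integral_const_mul _ _).symm
    rw [e2]
    refine integral_nonpos fun ω => ?_
    have h3 := ((neg_sq (H := ℝ) fun x => F x ω).rpow (a := p / 2) (by linarith)
      (by linarith)).neg c hc
    refine le_trans (le_of_eq ?_) h3
    refine sum_congr rfl fun x _ => sum_congr rfl fun y _ => ?_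
    rw [Real.norm_eq_abs, ← Real.rpow_natCast, ← Real.rpow_mul (abs_nonneg _)]
    congr 2
    push_cast; ring
  have h4 := hk.rpow (a := 1 / p) (by positivity) (by rw [div_le_one hp0]; exact h1)
  have e : (fun x y => (∫ ω, |F x ω - F y ω| ^ p ∂μ) ^ (1 / p)) = fun x y => ‖F x - F y‖ := by
    funext x y
    rw [Lp.norm_def, eLpNorm_congr_ae (Lp.coeFn_sub (F x) (F y))]
    have hm : MemLp (fun ω => F x ω - F y ω) (ENNReal.ofReal p) μ :=
      (Lp.memLp (F x)).sub (Lp.memLp (F y))
    have := hm.eLpNorm_eq_integral_rpow_norm hpe hpt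
    rw [htr] at this
    have e5 : eLpNorm (⇑(F x) - ⇑(F y)) (ENNReal.ofReal p) μ
        = ENNReal.ofReal ((∫ ω, ‖F x ω - F y ω‖ ^ p ∂μ) ^ p⁻¹) := this
    rw [e5, ENNReal.toReal_ofReal (Real.rpow_nonneg (integral_nonneg fun ω => by positivity) _)]
    simp only [Real.norm_eq_abs, one_div]
  rw [← e]
  exact h4

end Vale.Agent.P238.H474
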